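import Mathlib

namespace Vale.Agent.P249.Lower

open MeasureTheory ProbabilityTheory Filter Topology
open scoped NNReal ENNReal

/-- The p-th absolute moment of the standard normal law. -/
noncomputable def gmom (p : ℝ) : ℝ := ∫ t, |t| ^ p ∂gaussianReal 0 1

lemma integrable_abs_rpow_real {p : ℝ} (hp : 0 < p) (v : ℝ≥0) :
    Integrable (fun t : ℝ => |t| ^ p) (gaussianReal 0 v) := by
  have h := (memLp_id_gaussianReal' (μ := 0) (v := v) (ENNReal.ofReal p) ENNReal.ofReal_ne_top).integrable_norm_rpow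
    (by simp [hp]) ENNReal.ofReal_ne_top
  simpa [Real.norm_eq_abs, ENNReal.toReal_ofReal hp.le] using h

lemma gmom_pos {p : ℝ} (hp : 2 < p) : 0 < gmom p := by
  have h2 : ∫ t, t ^ 2 ∂gaussianReal 0 1 = 1 := by
    have h := variance_of_integral_eq_zero (μ := gaussianReal 0 1) (X := id) aemeasurable_id
      (by simp)
    rw [variance_id_gaussianReal] at h
    simpa using h.symm
  have hle : ∀ t : ℝ, t ^ 2 ≤ 1 / 2 + 2 ^ ((p - 2) / 2) * |t| ^ p := by
    intro t
    by_cases ht : t ^ 2 ≤ 1 / 2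
    · linarith [show (0:ℝ) ≤ 2 ^ ((p - 2) / 2) * |t| ^ p by positivity]
    · rw [not_le] at ht
      have h1 : (1:ℝ) ≤ (2 * t ^ 2) ^ ((p - 2) / 2) := Real.one_le_rpow (by linarith) (by linarith)
      have e : (2:ℝ) ^ ((p - 2) / 2) * |t| ^ p = (2 * t ^ 2) ^ ((p - 2) / 2) * t ^ 2 := by
        rw [Real.mul_rpow (by norm_num) (sq_nonneg t), mul_assoc, ← sq_abs t, ← Real.rpow_two,
          ← Real.rpow_mul (abs_nonneg t), ← Real.rpow_add' (abs_nonneg t) (by linarith)]
        congr 2; ring
      have := mul_le_mul_of_nonneg_right h1 (sq_nonneg t)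
      linarith
  have hint : Integrable (fun t : ℝ => |t| ^ p) (gaussianReal 0 1) := integrable_abs_rpow_real (by linarith) 1
  have hsq : Integrable (fun t : ℝ => t ^ 2) (gaussianReal 0 1) :=
    (memLp_id_gaussianReal' (μ := 0) (v := 1) 2 (by norm_num)).integrable_sq
  have h := integral_mono hsq ((integrable_const _).add (hint.const_mul _)) hle
  rw [h2, integral_add' (integrable_const _) (hint.const_mul _), integral_const, integral_const_mul] at h
  simp only [smul_eq_mul, probReal_univ, one_mul] at h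
  by_contra hc
  rw [not_lt] at hc
  unfold gmom at hc
  have := mul_nonpos_of_nonneg_of_nonpos (show (0:ℝ) ≤ 2 ^ ((p - 2) / 2) by positivity) hc
  linarith

lemma pi_gaussian_ac (N : ℕ) :
    Measure.pi (fun _ : Fin N => gaussianReal 0 1) ≪ (volume : Measure (Fin N → ℝ)) := by
  rw [volume_pi]
  induction N with
  | zero => rw [Measure.pi_of_empty, Measure.pi_of_empty]
  | succ N ih =>
    have h := (gaussianReal_absolutelyContinuous 0 (v := 1) one_ne_zero).prod ih
    have e1 := (measurePreserving_piFinSuccAbove (fun _ : Fin (N + 1) => gaussianReal 0 1) 0).symm.map_eq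
    have e2 := (measurePreserving_piFinSuccAbove (fun _ : Fin (N + 1) => (volume : Measure ℝ)) 0).symm.map_eq
    rw [← e1, ← e2]
    exact h.map (MeasurableEquiv.measurable _)

abbrev Euc (N : ℕ) := EuclideanSpace ℝ (Fin N)

lemma stdGaussian_ac (N : ℕ) : stdGaussian (Euc N) ≪ (volume : Measure (Euc N)) := by
  rw [← map_pi_eq_stdGaussian, ← (PiLp.volume_preserving_toLp (Fin N)).map_eq]
  exact (pi_gaussian_ac N).map (PiLp.volume_preserving_toLp (Fin N)).measurable

lemma map_dual (N : ℕ) (T : StrongDual ℝ (Euc N)) :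
    (stdGaussian (Euc N)).map T = (gaussianReal 0 1).map (fun t => ‖T‖ * t) := by
  rw [IsGaussian.map_eq_gaussianReal, integral_strongDual_stdGaussian, variance_dual_stdGaussian,
    gaussianReal_map_const_mul, mul_zero, mul_one]
  congr 1
  ext
  simp

lemma integral_dual_rpow {p : ℝ} (hp : 0 < p) (N : ℕ) (T : StrongDual ℝ (Euc N)) :
    ∫ y, |T y| ^ p ∂stdGaussian (Euc N) = ‖T‖ ^ p * gmom p := by
  have hc : Continuous fun t : ℝ => |t| ^ p := continuous_abs.rpow_const fun _ => Or.inr hp.le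
  rw [← integral_map (φ := T) T.continuous.aemeasurable (f := fun t : ℝ => |t| ^ p) hc.aestronglyMeasurable,
    map_dual, integral_map (by fun_prop) hc.aestronglyMeasurable, gmom, ← integral_const_mul]
  congr 1
  funext t
  rw [abs_mul, abs_norm, Real.mul_rpow (norm_nonneg _) (abs_nonneg _)]

lemma integrable_add_norm {p : ℝ} (hp : 1 ≤ p) (N : ℕ) :
    Integrable (fun z : Euc N × Euc N => (‖z.1‖ + ‖z.2‖) ^ p)
      ((stdGaussian (Euc N)).prod (stdGaussian (Euc N))) := by
  have h : MemLp id (ENNReal.ofReal p) (stdGaussian (Euc N)) :=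
    IsGaussian.memLp_id _ _ ENNReal.ofReal_ne_top
  have h1 := h.norm.comp_fst (stdGaussian (Euc N))
  have h2 := h.norm.comp_snd (stdGaussian (Euc N))
  have h3 := (h1.add h2).integrable_norm_rpow (by simp; linarith) ENNReal.ofReal_ne_top
  refine h3.congr (ae_of_all _ fun z => ?_)
  simp only [Pi.add_apply, id_eq, ENNReal.toReal_ofReal (show 0 ≤ p by linarith), Real.norm_eq_abs]
  rw [abs_of_nonneg (by positivity)]

lemma integrable_inc {p : ℝ} (hp : 1 ≤ p) {N : ℕ} {φ : Euc N → ℝ} {L : ℝ≥0} (hφ : LipschitzWith L φ)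
    (u v : Euc N × Euc N → Euc N) (hu : Continuous u) (hv : Continuous v) (c : ℝ)
    (huv : ∀ z, ‖u z - v z‖ ≤ c * (‖z.1‖ + ‖z.2‖)) :
    Integrable (fun z => |φ (u z) - φ (v z)| ^ p) ((stdGaussian (Euc N)).prod (stdGaussian (Euc N))) := by
  refine ((integrable_add_norm hp N).const_mul (((L:ℝ) * |c|) ^ p)).mono' ?_ (ae_of_all _ fun z => ?_)
  · exact (((hφ.continuous.comp hu).sub (hφ.continuous.comp hv)).abs.rpow_const
      fun _ => Or.inr (by linarith)).aestronglyMeasurable
  · rw [Real.norm_eq_abs, abs_of_nonneg (by positivity), ← Real.mul_rpow (by positivity) (by positivity)]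
    refine Real.rpow_le_rpow (abs_nonneg _) ?_ (by linarith)
    calc |φ (u z) - φ (v z)| ≤ L * ‖u z - v z‖ := by
          simpa [Real.norm_eq_abs] using hφ.norm_sub_le (u z) (v z)
      _ ≤ L * (c * (‖z.1‖ + ‖z.2‖)) := mul_le_mul_of_nonneg_left (huv z) L.coe_nonneg
      _ ≤ L * (|c| * (‖z.1‖ + ‖z.2‖)) := by gcongr; exact le_abs_self c
      _ = _ := by ring

/-- Gaussian concentration in symmetric form: a Lipschitz function takes nearly the same values
at g and -g, with no loss in the dimension. -/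
theorem gauss_sym {p : ℝ} (hp : 1 ≤ p) {N : ℕ} {φ : Euc N → ℝ} {L : ℝ≥0} (hφ : LipschitzWith L φ) :
    ∫ g, |φ g - φ (-g)| ^ p ∂stdGaussian (Euc N) ≤ Real.pi ^ p * ((L:ℝ) ^ p * gmom p) := by
  have hp0 : 0 < p := by linarith
  set γ := stdGaussian (Euc N) with hγ
  set P : ℝ → Euc N × Euc N → Euc N := fun θ z => Real.cos θ • z.1 + Real.sin θ • z.2 with hP
  have hPc : ∀ θ, Continuous (P θ) := fun θ => by simp only [hP]; fun_prop
  set F : ℕ → Euc N × Euc N → ℝ := fun k z =>
    |((k:ℝ) + 1) * (φ (P (Real.pi / (k + 1)) z) - φ z.1)| ^ p with hF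
  have hstep : ∀ θ z, ‖P θ z - z.1‖ ≤ |θ| * (‖z.1‖ + ‖z.2‖) := by
    intro θ z
    have e : P θ z - z.1 = (Real.cos θ - 1) • z.1 + Real.sin θ • z.2 := by
      simp only [hP, sub_smul, one_smul]; abel
    rw [e]
    refine (norm_add_le _ _).trans ?_
    rw [norm_smul, norm_smul, Real.norm_eq_abs, Real.norm_eq_abs, mul_add]
    refine add_le_add (mul_le_mul_of_nonneg_right ?_ (norm_nonneg _))
      (mul_le_mul_of_nonneg_right Real.abs_sin_le_abs (norm_nonneg _))
    have := Real.abs_cos_sub_cos_le θ 0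
    simpa using this
  have hle : ∀ k : ℕ, ∫ g, |φ g - φ (-g)| ^ p ∂γ ≤ ∫ z, F k z ∂(γ.prod γ) := by
    intro k
    set h := Real.pi / ((k:ℝ) + 1) with hh
    set a : ℕ → Euc N × Euc N → ℝ := fun j z => φ (P (j * h) z) with ha
    have hz : ∀ z : Euc N × Euc N, φ z.1 - φ (-z.1) = ∑ j ∈ Finset.range (k + 1), (a j z - a (j + 1) z) := by
      intro z
      rw [Finset.sum_range_sub']
      have e : ((k + 1 : ℕ) : ℝ) * h = Real.pi := by rw [hh]; push_cast; field_simp
      simp only [ha, hP, e, Nat.cast_zero, zero_mul, Real.cos_zero, Real.sin_zero, Real.cos_pi, Real.sin_pi,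
        one_smul, zero_smul, add_zero, neg_one_smul]
    have hpt : ∀ z : Euc N × Euc N, |φ z.1 - φ (-z.1)| ^ p
        ≤ ((k:ℝ) + 1) ^ (p - 1) * ∑ j ∈ Finset.range (k + 1), |a j z - a (j + 1) z| ^ p := by
      intro z
      rw [hz]
      refine (Real.rpow_le_rpow (abs_nonneg _) (Finset.abs_sum_le_sum_abs _ _) hp0.le).trans ?_
      have := Real.rpow_sum_le_const_mul_sum_rpow (Finset.range (k + 1)) (fun j => a j z - a (j + 1) z) hp
      simpa using this
    have hinv : ∀ j : ℕ, ∫ z, |a j z - a (j + 1) z| ^ p ∂(γ.prod γ)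
        = ∫ z, |φ (P h z) - φ z.1| ^ p ∂(γ.prod γ) := by
      intro j
      have hrot := IsGaussian.map_rotation_eq_self (μ := γ) integral_id_stdGaussian ((j:ℝ) * h)
      conv_rhs => rw [← hrot]
      have hc : Continuous fun z : Euc N × Euc N => |φ (P h z) - φ z.1| ^ p :=
        ((hφ.continuous.comp (hPc h)).sub (hφ.continuous.comp continuous_fst)).abs.rpow_const
          fun _ => Or.inr hp0.le
      rw [integral_map (ContinuousLinearMap.continuous _).aemeasurable hc.aestronglyMeasurable]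
      congr 1
      funext z
      rw [abs_sub_comm]
      simp only [ha, hP, ContinuousLinearMap.rotation_apply, Nat.cast_add, Nat.cast_one, add_mul, one_mul,
        Real.cos_add, Real.sin_add]
      congr 4
      module
    have hi : ∀ j : ℕ, Integrable (fun z => |a j z - a (j + 1) z| ^ p) (γ.prod γ) := by
      intro j
      refine integrable_inc hp hφ _ _ (hPc _) (hPc _) (|(j:ℝ) * h| + |((j + 1 : ℕ) : ℝ) * h|) fun z => ?_
      refine (norm_sub_le_norm_sub_add_norm_sub _ z.1 _).trans ?_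
      rw [add_mul]
      exact add_le_add (hstep _ z) (by rw [norm_sub_rev]; exact hstep _ z)
    have hg : Integrable (fun z : Euc N × Euc N => |φ z.1 - φ (-z.1)| ^ p) (γ.prod γ) :=
      integrable_inc hp hφ (fun z => z.1) (fun z => -z.1) continuous_fst continuous_fst.neg 2 fun z => by
        rw [sub_neg_eq_add, ← two_smul ℝ, norm_smul, Real.norm_two]
        linarith [norm_nonneg z.2]
    have e1 : ∫ g, |φ g - φ (-g)| ^ p ∂γ = ∫ z, |φ z.1 - φ (-z.1)| ^ p ∂(γ.prod γ) := by
      rw [integral_fun_fst (μ := γ) (ν := γ) (fun g => |φ g - φ (-g)| ^ p)]; simp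
    rw [e1]
    refine (integral_mono hg ((integrable_finsetSum _ fun j _ => hi j).const_mul _) hpt).trans (le_of_eq ?_)
    rw [integral_const_mul, integral_finsetSum _ fun j _ => hi j]
    simp only [hinv, Finset.sum_const, Finset.card_range, nsmul_eq_mul, ← mul_assoc]
    rw [← integral_const_mul]
    congr 1
    funext z
    simp only [hF]
    rw [abs_mul, abs_of_pos (show (0:ℝ) < (k:ℝ) + 1 by positivity), Real.mul_rpow (by positivity) (abs_nonneg _)]
    congr 1
    push_cast
    rw [← Real.rpow_add_one (by positivity)]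
    ring_nf
  set G : Euc N × Euc N → ℝ := fun z => |Real.pi * fderiv ℝ φ z.1 z.2| ^ p with hG
  have hae : ∀ᵐ z ∂(γ.prod γ), DifferentiableAt ℝ φ z.1 := by
    have := (stdGaussian_ac N).ae_le (hφ.ae_differentiableAt_of_real (μ := volume))
    exact Measure.quasiMeasurePreserving_fst.ae this
  have hlim : ∀ᵐ z ∂(γ.prod γ), Tendsto (fun k => F k z) atTop (𝓝 (G z)) := by
    filter_upwards [hae] with z hz
    have hd : HasDerivAt (fun θ => φ (P θ z)) (fderiv ℝ φ z.1 z.2) 0 := by
      have h1 : HasDerivAt (fun θ => P θ z) z.2 0 := by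
        refine (((Real.hasDerivAt_cos 0).smul_const z.1).fun_add
          ((Real.hasDerivAt_sin 0).smul_const z.2)).congr_deriv ?_
        simp
      exact (show HasFDerivAt φ (fderiv ℝ φ z.1) (P 0 z) by simpa [hP] using hz.hasFDerivAt).comp_hasDerivAt 0 h1
    have hk : Tendsto (fun k : ℕ => Real.pi / ((k:ℝ) + 1)) atTop (𝓝[≠] 0) := by
      refine tendsto_nhdsWithin_iff.2 ⟨?_, Eventually.of_forall fun k => ne_of_gt (by positivity)⟩
      simpa [div_eq_mul_inv] using (tendsto_one_div_add_atTop_nhds_zero_nat (𝕜 := ℝ)).const_mul Real.pi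
    have h2 := (hd.tendsto_slope_zero.comp hk).const_mul Real.pi
    have h3 := (h2.abs).rpow_const (p := p) (Or.inr hp0.le)
    refine h3.congr fun k => ?_
    simp only [hF, Function.comp_apply, smul_eq_mul, zero_add, hP, Real.cos_zero, Real.sin_zero,
      one_smul, zero_smul, add_zero]
    congr 2
    field_simp
  have hdom : ∀ k, ∀ᵐ z ∂(γ.prod γ), ‖F k z‖ ≤ ((L:ℝ) * Real.pi) ^ p * (‖z.1‖ + ‖z.2‖) ^ p := by
    intro k
    refine ae_of_all _ fun z => ?_
    simp only [hF]
    rw [Real.norm_eq_abs, abs_of_nonneg (by positivity), ← Real.mul_rpow (by positivity) (by positivity)]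
    refine Real.rpow_le_rpow (abs_nonneg _) ?_ hp0.le
    rw [abs_mul, abs_of_pos (show (0:ℝ) < (k:ℝ) + 1 by positivity)]
    have h1 : |φ (P (Real.pi / ((k:ℝ) + 1)) z) - φ z.1| ≤ L * ‖P (Real.pi / ((k:ℝ) + 1)) z - z.1‖ := by
      simpa [Real.norm_eq_abs] using hφ.norm_sub_le (P (Real.pi / ((k:ℝ) + 1)) z) z.1
    have h2 := hstep (Real.pi / ((k:ℝ) + 1)) z
    rw [abs_of_pos (show 0 < Real.pi / ((k:ℝ) + 1) by positivity)] at h2
    calc ((k:ℝ) + 1) * |φ (P (Real.pi / ((k:ℝ) + 1)) z) - φ z.1|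
        ≤ ((k:ℝ) + 1) * (L * (Real.pi / ((k:ℝ) + 1) * (‖z.1‖ + ‖z.2‖))) :=
          mul_le_mul_of_nonneg_left (h1.trans (mul_le_mul_of_nonneg_left h2 L.coe_nonneg)) (by positivity)
      _ = _ := by field_simp
  have hmeasF : ∀ k, AEStronglyMeasurable (F k) (γ.prod γ) := fun k =>
    ((continuous_const.mul ((hφ.continuous.comp (hPc _)).sub (hφ.continuous.comp continuous_fst))).abs.rpow_const
      fun _ => Or.inr hp0.le).aestronglyMeasurable
  have hbint : Integrable (fun z : Euc N × Euc N => ((L:ℝ) * Real.pi) ^ p * (‖z.1‖ + ‖z.2‖) ^ p) (γ.prod γ) :=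
    (integrable_add_norm hp N).const_mul _
  have ht := tendsto_integral_of_dominated_convergence _ hmeasF hbint hdom hlim
  refine (ge_of_tendsto' ht hle).trans ?_
  have hGint : Integrable G (γ.prod γ) := by
    refine hbint.mono' (aestronglyMeasurable_of_tendsto_ae atTop hmeasF hlim) ?_
    filter_upwards [hlim, ae_all_iff.2 hdom] with z hz hd
    exact le_of_tendsto' hz.norm hd
  rw [integral_prod G hGint]
  have hin : ∀ x, ∫ y, G (x, y) ∂γ ≤ Real.pi ^ p * ((L:ℝ) ^ p * gmom p) := by
    intro x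
    simp only [hG, abs_mul, abs_of_pos Real.pi_pos, Real.mul_rpow Real.pi_pos.le (abs_nonneg _)]
    rw [integral_const_mul, hγ, integral_dual_rpow hp0 N]
    refine mul_le_mul_of_nonneg_left (mul_le_mul_of_nonneg_right ?_
      (integral_nonneg fun t => by positivity)) (by positivity)
    exact Real.rpow_le_rpow (norm_nonneg _) (norm_fderiv_le_of_lipschitz ℝ hφ) hp0.le
  refine (integral_mono hGint.integral_prod_left (integrable_const _) hin).trans (le_of_eq ?_)
  simp

end Vale.Agent.P249.Lower
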