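import Vale.Agent.P249.Lower.Net

namespace Vale.Agent.P249.Lower

open MeasureTheory ProbabilityTheory Finset Filter Vale.Agent.P249.Sub
open scoped NNReal

/-- The Gaussian representation of a vector as an element of L_p. -/
noncomputable def emb (p : ℝ) {N : ℕ} (w : Euc N) : Lp ℝ (ENNReal.ofReal p) (stdGaussian (Euc N)) :=
  (IsGaussian.memLp_dual (stdGaussian (Euc N)) (innerSL ℝ w) (ENNReal.ofReal p) ENNReal.ofReal_ne_top).toLp _

lemma norm_emb_sub {p : ℝ} [Fact (1 ≤ ENNReal.ofReal p)] (hp : 0 < p) {N : ℕ} (v w : Euc N) :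
    ‖emb p v - emb p w‖ = gmom p ^ (1 / p) * ‖v - w‖ := by
  rw [emb, emb, ← MemLp.toLp_sub]
  have e : (⇑(innerSL ℝ v) - ⇑(innerSL ℝ w)) = ⇑(innerSL ℝ (v - w)) := by
    funext g; simp
  rw [Lp.norm_toLp, e, MemLp.eLpNorm_eq_integral_rpow_norm (by simp [hp]) ENNReal.ofReal_ne_top
    (IsGaussian.memLp_dual _ _ _ ENNReal.ofReal_ne_top), ENNReal.toReal_ofReal hp.le,
    ENNReal.toReal_ofReal (Real.rpow_nonneg (integral_nonneg fun g => by positivity) _)]
  simp only [Real.norm_eq_abs]
  rw [integral_dual_rpow hp, innerSL_apply_norm,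
    Real.mul_rpow (by positivity) (show 0 ≤ gmom p from integral_nonneg fun t => by positivity),
    ← Real.rpow_mul (norm_nonneg _),
    one_div, mul_inv_cancel₀ hp.ne', Real.rpow_one, mul_comm]

lemma card_gridBox (N R : ℕ) : (gridBox N R).card = (18 * R * N ^ 2 + 1) ^ N := by
  simp only [gridBox, Fintype.card_piFinset, prod_const, card_univ, Fintype.card_fin, Int.card_Icc]
  congr 1
  rw [show ((9 * R * N ^ 2 : ℕ) : ℤ) + 1 - -((9 * R * N ^ 2 : ℕ) : ℤ) = ((18 * R * N ^ 2 + 1 : ℕ) : ℤ) by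
    push_cast; ring, Int.toNat_natCast]

/-- For p > 2 some n-point subset of L_p needs (log n / log log n) ^ (p / 2) coordinates. -/
theorem exists_lower (p : ℝ) [Fact (1 ≤ ENNReal.ofReal p)] (hp : 2 < p) {D : ℝ} (hD : 0 < D) :
    ∃ c : ℝ, 0 < c ∧ ∃ n₀ : ℕ, ∀ n : ℕ, n₀ ≤ n →
      ∃ (α : Type) (_ : MeasurableSpace α) (μ : Measure α) (x : Fin n → Lp ℝ (ENNReal.ofReal p) μ),
        Function.Injective x ∧ ∀ (d : ℕ) (f : Fin n → Fin d → ℝ) (s : ℝ), 0 < s →
          (∀ i j, s * ‖x i - x j‖ ≤ (∑ k, |f i k - f j k| ^ p) ^ (1/p) ∧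
            (∑ k, |f i k - f j k| ^ p) ^ (1/p) ≤ D * (s * ‖x i - x j‖)) →
          c * (Real.log n / Real.log (Real.log n)) ^ (p / 2) ≤ d := by
  classical
  have hp0 : 0 < p := by linarith
  have hG : 0 < gmom p ^ (1 / p) := Real.rpow_pos_of_pos (gmom_pos hp) _
  obtain ⟨a, ha, R, hR, hnet⟩ := euclid_lower hp hD
  set A := Real.log (19 * R) with hA
  have hA0 : 0 ≤ A := Real.log_nonneg (by
    have : (1:ℝ) ≤ R := by exact_mod_cast hR
    linarith)
  set B := A + 3 with hB
  have hB0 : 0 < B := by linarith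
  refine ⟨a * (1 / (2 * B)) ^ (p / 2), by positivity, ?_⟩
  have t1 : Tendsto (fun n : ℕ => Real.log n) atTop atTop :=
    Real.tendsto_log_atTop.comp tendsto_natCast_atTop_atTop
  have ev1 : ∀ᶠ n : ℕ in atTop, 1 ≤ Real.log (Real.log n) :=
    (Real.tendsto_log_atTop.comp t1).eventually_ge_atTop 1
  have ev2 : ∀ᶠ n : ℕ in atTop, 2 * B * Real.log (Real.log n) ≤ Real.log n := by
    filter_upwards [t1.eventually (Real.isLittleO_log_id_atTop.bound (show 0 < 1 / (2 * B) by positivity)),
      ev1, t1.eventually_ge_atTop 0] with n h h1 h0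
    simp only [Real.norm_eq_abs, id_eq] at h
    rw [abs_of_nonneg (by linarith : (0:ℝ) ≤ Real.log (Real.log n)), abs_of_nonneg h0,
      div_mul_eq_mul_div, one_mul, le_div_iff₀ (by positivity)] at h
    linarith
  obtain ⟨n₀, hn₀⟩ := eventually_atTop.1 (ev1.and (ev2.and (eventually_ge_atTop 2)))
  refine ⟨n₀, fun n hn => ?_⟩
  obtain ⟨h1, h2, hn2⟩ := hn₀ n hn
  set l := Real.log n
  set ll := Real.log l
  set X := l / (B * ll) with hX
  have hX2 : 2 ≤ X := by rw [hX, le_div_iff₀ (by positivity)]; linarith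
  set N := ⌊X⌋₊ with hN
  have hN1 : 1 ≤ N := Nat.le_floor (by push_cast; linarith)
  have hNX : (N:ℝ) ≤ X := Nat.floor_le (by linarith)
  have hNh : X / 2 ≤ N := by linarith [Nat.lt_floor_add_one X]
  have hl0 : 0 ≤ l := Real.log_natCast_nonneg n
  have hBll : 1 ≤ B * ll := one_le_mul_of_one_le_of_one_le (by linarith) h1
  have hNl : Real.log N ≤ ll := by
    refine Real.log_le_log (by exact_mod_cast hN1) (hNX.trans ?_)
    rw [hX]
    exact div_le_self hl0 hBll
  have hbox : (gridBox N R).card ≤ n := by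
    rw [card_gridBox]
    have h3 : ((18 * R * N ^ 2 + 1 : ℕ) : ℝ) ≤ 19 * R * (N:ℝ) ^ 2 := by
      have hR' : (1:ℝ) ≤ R := by exact_mod_cast hR
      have hN' : (1:ℝ) ≤ N := by exact_mod_cast hN1
      have := one_le_mul_of_one_le_of_one_le hR' (one_le_pow₀ (n := 2) hN')
      push_cast
      linarith
    have h4 : (((18 * R * N ^ 2 + 1) ^ N : ℕ) : ℝ) ≤ n := by
      rw [Nat.cast_pow]
      refine (pow_le_pow_left₀ (by positivity) h3 N).trans ?_
      rw [← Real.log_le_log_iff (by positivity) (by positivity), Real.log_pow,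
        Real.log_mul (by positivity) (by positivity), Real.log_pow, ← hA]
      have h5 : A + (2:ℕ) * Real.log N ≤ B * ll := by
        have h6 : A ≤ A * ll := le_mul_of_one_le_right hA0 h1
        rw [hB]; push_cast; linarith
      calc (N:ℝ) * (A + (2:ℕ) * Real.log N) ≤ X * (B * ll) :=
            mul_le_mul hNX h5 (by
              have : 0 ≤ Real.log N := Real.log_natCast_nonneg N
              positivity) (by linarith)
        _ = l := by rw [hX]; field_simp
    exact_mod_cast h4
  have : Nonempty (Fin N) := ⟨⟨0, hN1⟩⟩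
  obtain ⟨S, hS, hSc⟩ := Infinite.exists_superset_card_eq (gridBox N R) n hbox
  set e := Finset.equivFinOfCardEq hSc with he
  refine ⟨Euc N, inferInstance, stdGaussian (Euc N), fun i => emb p (pt N (e.symm i)), ?_, fun d f s hs hf => ?_⟩
  · intro i j hij
    have h := norm_emb_sub (p := p) hp0 (pt N (e.symm i : Fin N → ℤ)) (pt N (e.symm j))
    simp only at hij
    rw [hij, sub_self, norm_zero, eq_comm, mul_eq_zero, norm_eq_zero, sub_eq_zero] at h
    exact e.symm.injective (Subtype.ext (pt_injective (h.resolve_left hG.ne')))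
  set t := (s * gmom p ^ (1 / p))⁻¹ with ht
  have ht0 : 0 < t := by positivity
  set F : (Fin N → ℤ) → Fin d → ℝ := fun u => if h : u ∈ S then t • f (e ⟨u, h⟩) else 0 with hF
  have hres := hnet N hN1 S hS d F fun u hu v hv => by
    obtain ⟨l1, l2⟩ := hf (e ⟨u, hu⟩) (e ⟨v, hv⟩)
    have e1 : nrm p (F u - F v) = t * (∑ k, |f (e ⟨u, hu⟩) k - f (e ⟨v, hv⟩) k| ^ p) ^ (1 / p) := by
      simp only [hF, dif_pos hu, dif_pos hv]
      rw [← smul_sub, nrm_smul (by linarith), abs_of_pos ht0]
      rfl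
    simp only [Equiv.symm_apply_apply, norm_emb_sub hp0] at l1 l2
    rw [e1, ht]
    constructor
    · rw [le_inv_mul_iff₀ (by positivity)]
      linarith
    · rw [inv_mul_le_iff₀ (by positivity)]
      linarith
  refine le_trans ?_ hres
  rw [mul_assoc, ← Real.mul_rpow (by positivity) (by positivity)]
  refine mul_le_mul_of_nonneg_left (Real.rpow_le_rpow (by positivity) ?_ (by linarith)) ha.le
  refine le_trans (le_of_eq ?_) hNh
  rw [hX]; field_simp

/-- The lower bound exceeds every multiple of log n. -/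
lemma eventually_superlog {p : ℝ} (hp : 2 < p) {c : ℝ} (hc : 0 < c) (K : ℝ) :
    ∀ᶠ n : ℕ in atTop, K * Real.log n < c * (Real.log n / Real.log (Real.log n)) ^ (p / 2) := by
  have t1 : Tendsto (fun n : ℕ => Real.log n) atTop atTop :=
    Real.tendsto_log_atTop.comp tendsto_natCast_atTop_atTop
  filter_upwards [(Real.tendsto_log_atTop.comp t1).eventually_ge_atTop 1, t1.eventually_ge_atTop 1,
    t1.eventually ((isLittleO_log_rpow_rpow_atTop (p / 2) (show 0 < p / 2 - 1 by linarith)).bound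
      (show 0 < c / (|K| + 1) by positivity))] with n h1 h0 h
  set l := Real.log n
  set ll := Real.log l with hll
  simp only [Function.comp_apply] at h1
  have hll0 : 0 < ll := by linarith
  rw [Real.norm_eq_abs, Real.norm_eq_abs, abs_of_nonneg (Real.rpow_nonneg hll0.le _),
    abs_of_nonneg (show 0 ≤ l ^ (p / 2 - 1) from Real.rpow_nonneg (by linarith) _),
    div_mul_eq_mul_div, le_div_iff₀ (by positivity)] at h
  rw [Real.div_rpow (by linarith) hll0.le, mul_div_assoc', lt_div_iff₀ (by positivity),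
    show l ^ (p / 2) = l ^ (p / 2 - 1) * l by rw [← Real.rpow_add_one (by linarith)]; congr 1; ring]
  have h3 : K * ll ^ (p / 2) < c * l ^ (p / 2 - 1) := by
    have h4 := mul_le_mul_of_nonneg_left (le_abs_self K) (Real.rpow_nonneg hll0.le (p / 2))
    have h5 := Real.rpow_pos_of_pos hll0 (p / 2)
    linarith
  have := mul_lt_mul_of_pos_right h3 (show 0 < l by linarith)
  linarith

end Vale.Agent.P249.Lower
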