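import Vale.Agent.P249.Lower.Gauss
import Vale.Agent.P249.Sub.Nrm

namespace Vale.Agent.P249.Lower

open MeasureTheory ProbabilityTheory Finset Vale.Agent.P249.Sub
open scoped NNReal

/-- The grid point with integer coordinates u. -/
noncomputable def pt (N : ℕ) (u : Fin N → ℤ) : Euc N :=
  (1 / (8 * (N:ℝ))) • WithLp.toLp 2 (fun i => (u i : ℝ))

lemma pt_injective {N : ℕ} : Function.Injective (pt N) := by
  intro u v h
  funext i
  have hN : 0 < N := i.pos
  have h1 := congrArg (fun w : Euc N => w i) h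
  simp only [pt, PiLp.smul_apply, smul_eq_mul] at h1
  exact_mod_cast mul_left_cancel₀ (by positivity) h1

/-- The grid box. -/
noncomputable def gridBox (N R : ℕ) : Finset (Fin N → ℤ) :=
  Fintype.piFinset fun _ => Icc (-((9 * R * N ^ 2 : ℕ) : ℤ)) ((9 * R * N ^ 2 : ℕ) : ℤ)

lemma exists_round {N R : ℕ} (hN : 1 ≤ N) (hR : 1 ≤ R) (g : Euc N) (hg : ‖g‖ ≤ R * Real.sqrt N) :
    ∃ u ∈ gridBox N R, ‖g - pt N u‖ ≤ Real.sqrt N / (8 * N) := by
  set h : ℝ := 1 / (8 * (N:ℝ)) with hh
  have hN' : (1:ℝ) ≤ N := by exact_mod_cast hN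
  have hR' : (1:ℝ) ≤ R := by exact_mod_cast hR
  have hh0 : 0 < h := by positivity
  refine ⟨fun i => ⌊g i / h⌋, ?_, ?_⟩
  · rw [gridBox, Fintype.mem_piFinset]
    intro i
    rw [Finset.mem_Icc]
    have h1 : |g i| ≤ R * Real.sqrt N := by
      have := PiLp.norm_apply_le g i
      rw [Real.norm_eq_abs] at this
      linarith
    have h2 : Real.sqrt N ≤ N := Real.sqrt_le_iff.2 ⟨by linarith, le_self_pow₀ hN' (by norm_num)⟩
    have h3 : |g i / h| ≤ 8 * (R * (N:ℝ) ^ 2) := by
      rw [abs_div, abs_of_pos hh0, hh, div_div_eq_mul_div, div_one]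
      calc |g i| * (8 * (N:ℝ)) ≤ R * (N:ℝ) * (8 * (N:ℝ)) := by
            refine mul_le_mul_of_nonneg_right ?_ (by positivity)
            exact h1.trans (mul_le_mul_of_nonneg_left h2 (by positivity))
        _ = _ := by ring
    have h4 : (1:ℝ) ≤ R * (N:ℝ) ^ 2 := one_le_mul_of_one_le_of_one_le hR' (one_le_pow₀ hN')
    obtain ⟨h5, h6⟩ := abs_le.1 h3
    have f1 := Int.floor_le (g i / h)
    have f2 := Int.lt_floor_add_one (g i / h)
    constructor
    · have : ((-((9 * R * N ^ 2 : ℕ) : ℤ) : ℤ) : ℝ) ≤ (⌊g i / h⌋ : ℝ) := by push_cast; linarith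
      exact_mod_cast this
    · have : (⌊g i / h⌋ : ℝ) ≤ (((9 * R * N ^ 2 : ℕ) : ℤ) : ℝ) := by push_cast; linarith
      exact_mod_cast this
  · rw [EuclideanSpace.norm_eq]
    have e : Real.sqrt N / (8 * N) = Real.sqrt ((N:ℝ) * h ^ 2) := by
      rw [Real.sqrt_mul (Nat.cast_nonneg N), Real.sqrt_sq hh0.le, hh]; ring
    rw [e]
    refine Real.sqrt_le_sqrt ((sum_le_card_nsmul _ _ (h ^ 2) fun i _ => ?_).trans (le_of_eq (by simp)))
    rw [Real.norm_eq_abs, sq_abs]
    have e1 : (g - pt N fun j => ⌊g j / h⌋) i = h * (g i / h - (⌊g i / h⌋ : ℝ)) := by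
      simp only [pt, PiLp.sub_apply, PiLp.smul_apply, smul_eq_mul, ← hh]
      field_simp
    rw [e1, mul_pow]
    refine mul_le_of_le_one_right (sq_nonneg h) (pow_le_one₀ ?_ ?_)
    · linarith [Int.floor_le (g i / h)]
    · linarith [Int.lt_floor_add_one (g i / h)]

lemma integral_coord (N : ℕ) (i : Fin N) (k : ℕ) :
    ∫ g, (g i) ^ k ∂stdGaussian (Euc N) = ∫ t, t ^ k ∂gaussianReal 0 1 := by
  set T : StrongDual ℝ (Euc N) := innerSL ℝ (EuclideanSpace.single i (1:ℝ)) with hT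
  have hT1 : ‖T‖ = 1 := by rw [hT, innerSL_apply_norm]; simp
  have hTi : ∀ g, T g = g i := fun g => by simp [hT, EuclideanSpace.inner_single_left]
  simp only [← hTi]
  rw [← integral_map (φ := T) T.continuous.aemeasurable (f := fun t : ℝ => t ^ k)
    (continuous_pow k).aestronglyMeasurable, map_dual, hT1]
  simp

lemma integrable_coord (N : ℕ) (i : Fin N) (k : ℕ) :
    Integrable (fun g : Euc N => (g i) ^ k) (stdGaussian (Euc N)) := by
  rcases Nat.eq_zero_or_pos k with rfl | hk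
  · simp only [pow_zero]; exact integrable_const _
  refine (((IsGaussian.memLp_id (stdGaussian (Euc N)) (k : ENNReal) (by simp)).integrable_norm_pow hk.ne').mono'
    (by fun_prop) (ae_of_all _ fun g => ?_))
  rw [norm_pow, id_eq]
  exact pow_le_pow_left₀ (norm_nonneg _) (PiLp.norm_apply_le g i) k

lemma gauss_sq_moment : ∫ t, t ^ 2 ∂gaussianReal 0 1 = 1 := by
  have h := variance_of_integral_eq_zero (μ := gaussianReal 0 1) (X := id) aemeasurable_id (by simp)
  rw [variance_id_gaussianReal] at h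
  simpa using h.symm

lemma integral_norm_sq (N : ℕ) : ∫ g : Euc N, ‖g‖ ^ 2 ∂stdGaussian (Euc N) = N := by
  simp only [EuclideanSpace.norm_sq_eq, Real.norm_eq_abs, sq_abs]
  rw [integral_finsetSum _ fun i _ => integrable_coord N i 2]
  simp [integral_coord, gauss_sq_moment]

lemma integral_norm_four (N : ℕ) :
    ∫ g : Euc N, ‖g‖ ^ 4 ∂stdGaussian (Euc N) ≤ (N:ℝ) ^ 2 * ∫ t, t ^ 4 ∂gaussianReal 0 1 := by
  have hpt : ∀ g : Euc N, ‖g‖ ^ 4 ≤ (N:ℝ) * ∑ i, g i ^ 4 := by
    intro g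
    have h := sq_sum_le_card_mul_sum_sq (s := (univ : Finset (Fin N))) (f := fun i => g i ^ 2)
    simp only [card_univ, Fintype.card_fin, ← pow_mul] at h
    calc ‖g‖ ^ 4 = (‖g‖ ^ 2) ^ 2 := by ring
      _ = (∑ i, g i ^ 2) ^ 2 := by simp only [EuclideanSpace.norm_sq_eq, Real.norm_eq_abs, sq_abs]
      _ ≤ _ := h
  have hi := integrable_finsetSum (univ : Finset (Fin N)) fun i _ => integrable_coord N i 4
  have h0 : Integrable (fun g : Euc N => ‖g‖ ^ 4) (stdGaussian (Euc N)) := by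
    simpa using (IsGaussian.memLp_id (stdGaussian (Euc N)) ((4 : ℕ) : ENNReal) (by simp)).integrable_norm_pow
      (by norm_num)
  refine (integral_mono h0 (hi.const_mul _) hpt).trans (le_of_eq ?_)
  rw [integral_const_mul, integral_finsetSum _ fun i _ => integrable_coord N i 4]
  simp only [integral_coord, sum_const, card_univ, Fintype.card_fin, nsmul_eq_mul]
  ring

/-- A fine grid in the Euclidean ball of dimension N needs N ^ (p / 2) coordinates in ℓ_p. -/
theorem euclid_lower {p : ℝ} (hp : 2 < p) {D : ℝ} (hD : 0 < D) :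
    ∃ a : ℝ, 0 < a ∧ ∃ R : ℕ, 1 ≤ R ∧ ∀ N : ℕ, 1 ≤ N → ∀ S : Finset (Fin N → ℤ), gridBox N R ⊆ S →
      ∀ (d : ℕ) (f : (Fin N → ℤ) → Fin d → ℝ),
        (∀ u ∈ S, ∀ v ∈ S, ‖pt N u - pt N v‖ ≤ nrm p (f u - f v) ∧
          nrm p (f u - f v) ≤ D * ‖pt N u - pt N v‖) →
        a * (N:ℝ) ^ (p / 2) ≤ d := by
  classical
  have hp1 : 1 ≤ p := by linarith
  have hp0 : 0 < p := by linarith
  set G := gmom p ^ (1 / p) with hG
  have hG0 : 0 < G := Real.rpow_pos_of_pos (gmom_pos hp) _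
  set b := min (1 / (4 * Real.pi * G * D)) (1 / D) with hb
  have hb0 : 0 < b := lt_min (by positivity) (by positivity)
  set M4 := ∫ t, t ^ 4 ∂gaussianReal 0 1 with hM4
  have hM40 : 0 ≤ M4 := integral_nonneg fun t => by positivity
  set R := ⌈2 * (1 + M4)⌉₊ with hR
  have hRr : 2 * (1 + M4) ≤ (R:ℝ) := Nat.le_ceil _
  have hR1 : 1 ≤ R := Nat.ceil_pos.2 (by linarith)
  refine ⟨b ^ p, by positivity, R, hR1, fun N hN S hS d f hf => ?_⟩
  by_contra hcon
  rw [not_le] at hcon
  have hNr : (1:ℝ) ≤ N := by exact_mod_cast hN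
  set sN := Real.sqrt (N:ℝ) with hsN
  have hsN1 : 1 ≤ sN := Real.one_le_sqrt.2 hNr
  have hsN2 : sN * sN = N := Real.mul_self_sqrt (by linarith)
  have hdb : (d:ℝ) ^ (1 / p) ≤ b * sN := by
    have h := Real.rpow_le_rpow (Nat.cast_nonneg d) hcon.le (show 0 ≤ 1 / p by positivity)
    refine h.trans (le_of_eq ?_)
    rw [Real.mul_rpow (by positivity) (by positivity), ← Real.rpow_mul hb0.le, ← Real.rpow_mul (by linarith),
      mul_one_div_cancel hp0.ne', Real.rpow_one, hsN, Real.sqrt_eq_rpow]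
    congr 2
    field_simp
  -- coordinatewise extensions
  set L : ℝ≥0 := D.toNNReal with hL
  have hLD : (L:ℝ) = D := Real.coe_toNNReal D hD.le
  have hext : ∀ k : Fin d, ∃ φ : Euc N → ℝ, LipschitzWith L φ ∧ ∀ u ∈ S, φ (pt N u) = f u k := by
    intro k
    have hlip : LipschitzOnWith L (Function.extend (pt N) (fun u => f u k) 0) (pt N '' (S : Set (Fin N → ℤ))) := by
      refine LipschitzOnWith.of_dist_le_mul ?_
      rintro _ ⟨u, hu, rfl⟩ _ ⟨v, hv, rfl⟩
      rw [pt_injective.extend_apply, pt_injective.extend_apply, hLD, Real.dist_eq, dist_eq_norm]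
      refine le_trans ?_ (hf u hu v hv).2
      refine le_nrm_of_le_psum hp1 (abs_nonneg _) ?_
      exact single_le_sum (f := fun j => |(f u - f v) j| ^ p)
        (fun j _ => Real.rpow_nonneg (abs_nonneg _) _) (mem_univ k)
    obtain ⟨φ, hφ, he⟩ := hlip.extend_real
    refine ⟨φ, hφ, fun u hu => ?_⟩
    rw [← he ⟨u, hu, rfl⟩, pt_injective.extend_apply]
  choose φ hφ hφe using hext
  set Δ : Euc N → Fin d → ℝ := fun g k => φ k g - φ k (-g) with hΔ
  set γ := stdGaussian (Euc N) with hγ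
  set l := sN / 4 with hl
  have hl0 : 0 < l := by positivity
  have hkey : ∀ g : Euc N, ‖g‖ ≤ R * sN → 2 * ‖g‖ ≤ nrm p (Δ g) + 1 / 2 := by
    intro g hg
    obtain ⟨u, hu, hu'⟩ := exists_round hN hR1 g hg
    obtain ⟨v, hv, hv'⟩ := exists_round hN hR1 (-g) (by rwa [norm_neg])
    set r := sN / (8 * (N:ℝ)) with hr
    have h1 : 2 * ‖g‖ ≤ ‖pt N u - pt N v‖ + 2 * r := by
      have e : (2:ℝ) • g = (pt N u - pt N v) + ((g - pt N u) - (-g - pt N v)) := by module
      have h2 : ‖(2:ℝ) • g‖ ≤ ‖pt N u - pt N v‖ + (‖g - pt N u‖ + ‖-g - pt N v‖) := by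
        rw [e]; exact (norm_add_le _ _).trans (add_le_add le_rfl (norm_sub_le _ _))
      rw [norm_smul, Real.norm_two] at h2
      linarith
    have h3 : nrm p (f u - f v) ≤ nrm p (Δ g) + (d:ℝ) ^ (1 / p) * (2 * D * r) := by
      have e : f u - f v = Δ g + fun k => (f u k - φ k g) - (f v k - φ k (-g)) := by
        funext k; simp only [hΔ, Pi.sub_apply, Pi.add_apply]; ring
      rw [e]
      refine (nrm_add_le hp1 _ _).trans (add_le_add le_rfl ?_)
      refine nrm_le_of_psum_le hp1 (by positivity) ?_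
      refine (sum_le_card_nsmul _ _ ((2 * D * r) ^ p) fun k _ => ?_).trans (le_of_eq ?_)
      · refine Real.rpow_le_rpow (abs_nonneg _) ((abs_sub _ _).trans ?_) hp0.le
        have a1 : |f u k - φ k g| ≤ D * r := by
          rw [← hφe k u (hS hu)]
          have := (hφ k).norm_sub_le (pt N u) g
          rw [Real.norm_eq_abs, hLD, norm_sub_rev] at this
          exact this.trans (mul_le_mul_of_nonneg_left hu' hD.le)
        have a2 : |f v k - φ k (-g)| ≤ D * r := by
          rw [← hφe k v (hS hv)]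
          have := (hφ k).norm_sub_le (pt N v) (-g)
          rw [Real.norm_eq_abs, hLD, norm_sub_rev] at this
          exact this.trans (mul_le_mul_of_nonneg_left hv' hD.le)
        linarith
      · rw [card_univ, Fintype.card_fin, nsmul_eq_mul, Real.mul_rpow (x := (d:ℝ) ^ (1 / p)) (by positivity) (by positivity),
          ← Real.rpow_mul (Nat.cast_nonneg d), one_div_mul_cancel hp0.ne', Real.rpow_one]
    have h4 := (hf u (hS hu) v (hS hv)).1
    have hbD : b * D ≤ 1 := by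
      have := mul_le_mul_of_nonneg_right (min_le_right (1 / (4 * Real.pi * G * D)) (1 / D)) hD.le
      rwa [one_div_mul_cancel hD.ne'] at this
    have h5 : (d:ℝ) ^ (1 / p) * (2 * D * r) ≤ 1 / 4 := by
      refine (mul_le_mul_of_nonneg_right hdb (by positivity)).trans ?_
      rw [show b * sN * (2 * D * r) = b * D * (1 / 4 * ((sN * sN) / N)) by rw [hr]; ring, hsN2,
        div_self (by linarith : (N:ℝ) ≠ 0), mul_one]
      linarith
    have h6 : r ≤ 1 / 8 := by
      rw [hr, div_le_iff₀ (by positivity)]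
      have : sN ≤ sN * sN := le_mul_of_one_le_left (by linarith) hsN1
      linarith
    linarith
  have hint : ∀ k, Integrable (fun g => |Δ g k| ^ p) γ := by
    intro k
    have h := ((IsGaussian.memLp_id γ (ENNReal.ofReal p) ENNReal.ofReal_ne_top).integrable_norm_rpow
      (by simp [hp0]) ENNReal.ofReal_ne_top).const_mul ((2 * D) ^ p)
    refine h.mono' (((hφ k).continuous.sub ((hφ k).continuous.comp continuous_neg)).abs.rpow_const
      fun _ => Or.inr hp0.le).aestronglyMeasurable (ae_of_all _ fun g => ?_)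
    rw [Real.norm_eq_abs, abs_of_nonneg (by positivity), ENNReal.toReal_ofReal hp0.le, id_eq,
      ← Real.mul_rpow (by positivity) (norm_nonneg _)]
    refine Real.rpow_le_rpow (abs_nonneg _) ?_ hp0.le
    have := (hφ k).norm_sub_le g (-g)
    rw [Real.norm_eq_abs, hLD, sub_neg_eq_add, ← two_smul ℝ, norm_smul, Real.norm_two] at this
    simp only [hΔ]
    linarith
  have hsum : ∫ g, ∑ k, |Δ g k| ^ p ∂γ ≤ l ^ p := by
    rw [integral_finsetSum _ fun k _ => hint k]
    refine (sum_le_sum fun k _ => gauss_sym hp1 (hφ k)).trans ?_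
    rw [sum_const, card_univ, Fintype.card_fin, nsmul_eq_mul, hLD]
    have e : (d:ℝ) * (Real.pi ^ p * (D ^ p * gmom p)) = ((d:ℝ) ^ (1 / p) * (Real.pi * (D * G))) ^ p := by
      rw [Real.mul_rpow (by positivity) (by positivity), Real.mul_rpow Real.pi_pos.le (by positivity),
        Real.mul_rpow hD.le hG0.le, hG, ← Real.rpow_mul (Nat.cast_nonneg d), ← Real.rpow_mul (gmom_pos hp).le,
        one_div_mul_cancel hp0.ne', Real.rpow_one, Real.rpow_one]
    rw [e]
    refine Real.rpow_le_rpow (by positivity) ((mul_le_mul_of_nonneg_right hdb (by positivity)).trans ?_) hp0.le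
    have h1 := mul_le_mul_of_nonneg_right (min_le_left (1 / (4 * Real.pi * G * D)) (1 / D))
      (show 0 ≤ sN * (Real.pi * (D * G)) by positivity)
    rw [hb, mul_assoc]
    refine h1.trans (le_of_eq ?_)
    rw [hl]; field_simp
  have hsq : ∀ g, nrm p (Δ g) ^ 2 ≤ l ^ 2 + (∑ k, |Δ g k| ^ p) / l ^ (p - 2) := by
    intro g
    have hn := nrm_nonneg (p := p) (Δ g)
    rw [← nrm_rpow hp1]
    by_cases hc : nrm p (Δ g) ≤ l
    · have := pow_le_pow_left₀ hn hc 2
      have : 0 ≤ nrm p (Δ g) ^ p / l ^ (p - 2) := by positivity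
      linarith
    · rw [not_le] at hc
      refine le_trans ?_ (le_add_of_nonneg_left (sq_nonneg l))
      rw [le_div_iff₀ (Real.rpow_pos_of_pos hl0 _)]
      calc nrm p (Δ g) ^ 2 * l ^ (p - 2) ≤ nrm p (Δ g) ^ 2 * nrm p (Δ g) ^ (p - 2) := by
            gcongr
        _ = _ := by rw [← Real.rpow_two, ← Real.rpow_add (hl0.trans hc)]; ring_nf
  have hpt : ∀ g : Euc N, ‖g‖ ^ 2 ≤
      (l ^ 2 + (∑ k, |Δ g k| ^ p) / l ^ (p - 2)) / 2 + 1 / 8 + ‖g‖ ^ 4 / ((R:ℝ) ^ 2 * N) := by
    intro g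
    by_cases hg : ‖g‖ ≤ R * sN
    · have h1 := hkey g hg
      have h2 := pow_le_pow_left₀ (by positivity) h1 2
      have h3 := hsq g
      have h4 : 0 ≤ ‖g‖ ^ 4 / ((R:ℝ) ^ 2 * N) := by positivity
      linarith [sq_nonneg (nrm p (Δ g) - 1 / 2)]
    · rw [not_le] at hg
      have h1 := pow_le_pow_left₀ (by positivity) hg.le 2
      rw [mul_pow, sq sN, hsN2] at h1
      have h2 : ‖g‖ ^ 2 ≤ ‖g‖ ^ 4 / ((R:ℝ) ^ 2 * N) := by
        rw [le_div_iff₀ (by positivity), show ‖g‖ ^ 4 = ‖g‖ ^ 2 * ‖g‖ ^ 2 by ring]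
        exact mul_le_mul_of_nonneg_left h1 (sq_nonneg _)
      have h3 : 0 ≤ (∑ k, |Δ g k| ^ p) / l ^ (p - 2) := by positivity
      linarith [sq_nonneg l]
  have i2 : Integrable (fun g : Euc N => ‖g‖ ^ 2) γ := (IsGaussian.memLp_two_id (μ := γ)).norm.integrable_sq
  have i4 : Integrable (fun g : Euc N => ‖g‖ ^ 4) γ := by
    simpa using (IsGaussian.memLp_id γ ((4 : ℕ) : ENNReal) (by simp)).integrable_norm_pow (by norm_num)
  have iS : Integrable (fun g => ∑ k, |Δ g k| ^ p) γ := integrable_finsetSum _ fun k _ => hint k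
  have h := integral_mono i2
    (((((integrable_const (l ^ 2)).add (iS.div_const _)).div_const 2).add (integrable_const (1/8:ℝ))).add
      (i4.div_const _)) hpt
  rw [integral_norm_sq, integral_add'
      ((((integrable_const (l ^ 2)).add (iS.div_const _)).div_const 2).add (integrable_const (1/8:ℝ))) (i4.div_const _),
    integral_add' (((integrable_const (l ^ 2)).add (iS.div_const _)).div_const 2) (integrable_const (1/8:ℝ)),
    integral_div, integral_div, integral_const, smul_eq_mul, probReal_univ, one_mul] at h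
  simp only [Pi.add_apply] at h
  rw [integral_add (integrable_const (l ^ 2)) (iS.div_const _), integral_const, smul_eq_mul, probReal_univ,
    one_mul, integral_div] at h
  have h7 : (∫ g, ∑ k, |Δ g k| ^ p ∂γ) / l ^ (p - 2) ≤ l ^ 2 := by
    rw [div_le_iff₀ (Real.rpow_pos_of_pos hl0 _), ← Real.rpow_two, ← Real.rpow_add hl0]
    refine hsum.trans (le_of_eq ?_)
    ring_nf
  have h8 : (∫ g : Euc N, ‖g‖ ^ 4 ∂γ) / ((R:ℝ) ^ 2 * N) ≤ N / 4 := by
    rw [div_le_iff₀ (by positivity)]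
    refine (integral_norm_four N).trans ?_
    rw [← hM4]
    have h9 : 4 * M4 ≤ (R:ℝ) ^ 2 := by nlinarith
    calc (N:ℝ) ^ 2 * M4 = (N:ℝ) ^ 2 * (4 * M4) / 4 := by ring
      _ ≤ (N:ℝ) ^ 2 * (R:ℝ) ^ 2 / 4 := by gcongr
      _ = _ := by ring
  rw [hl, div_pow, sq sN, hsN2] at h7 h
  rw [integral_div] at h
  linarith

end Vale.Agent.P249.Lower
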